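import Vale.Agent.P132.Defs

/-!
# Module interfaces for P132 (notes/P132/LEAN.md)

Not imported by hand-ins except for the definitions below.
-/

namespace Vale.Agent.P132

open scoped InnerProductSpace Topology ComplexOrder
open Filter MeasureTheory

universe u

variable {H : Type u} [NormedAddCommGroup H] [InnerProductSpace ℂ H] [CompleteSpace H]

/-- The vector state. -/
noncomputable def vecState (Ω : H) : (H →L[ℂ] H) →ₗ[ℂ] ℂ where
  toFun x := ⟪Ω, x Ω⟫_ℂ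
  map_add' x y := by simp
  map_smul' c x := by simp

/-- `Ω` is a cyclic and separating unit vector of `M`. -/
structure IsCS (M : VonNeumannAlgebra H) (Ω : H) : Prop where
  norm : ‖Ω‖ = 1
  cyclic : ∀ ξ : H, ∀ η : ℝ, 0 < η → ∃ x ∈ M, ‖x Ω - ξ‖ ≤ η
  separating : ∀ x ∈ M, x Ω = 0 → x = 0

/-- Gaussian window of width `T` at frequency `E`, at a complex time. -/
noncomputable def gauss (T E : ℝ) (z : ℂ) : ℂ :=
  Complex.exp (-(z / (T : ℂ)) ^ 2 / 2) * Complex.exp (-(Complex.I * (E : ℂ) * z))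

/-- What the modular theory of `(M, Ω)` supplies (module Modular). -/
structure ModData (M : VonNeumannAlgebra H) (Ω : H) where
  /-- the modular group on vectors -/
  U : ℝ → H →L[ℂ] H
  /-- the modular conjugation -/
  J : H → H
  U_zero : U 0 = 1
  U_add : ∀ s t, U (s + t) = U s * U t
  U_star : ∀ t, star (U t) = U (-t)
  U_cont : ∀ v, Continuous fun t => U t v
  U_omega : ∀ t, U t Ω = Ω
  U_conj : ∀ t, ∀ x ∈ M, U t * x * U (-t) ∈ M
  J_add : ∀ v w, J (v + w) = J v + J w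
  J_smul : ∀ (c : ℂ) v, J (c • v) = starRingEnd ℂ c • J v
  J_invol : ∀ v, J (J v) = v
  J_inner : ∀ v w, ⟪J v, J w⟫_ℂ = ⟪w, v⟫_ℂ
  J_omega : J Ω = Ω
  J_U : ∀ t v, J (U t v) = U t (J v)
  J_comm : ∀ x ∈ M, ∀ y ∈ M, ∀ v, x (J (y (J v))) = J (y (J (x v)))
  /-- `Δ^(1/2) xΩ = J x*Ω`, smeared by a Gaussian. -/
  kms : ∀ x ∈ M, ∀ T E : ℝ, 0 < T →
    J (∫ t : ℝ, starRingEnd ℂ (gauss T E (t : ℂ)) • U t (star x Ω)) =
      ∫ t : ℝ, gauss T E ((t : ℂ) + Complex.I / 2) • U t (x Ω)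

variable {M : VonNeumannAlgebra H} {Ω : H}

/-- The smeared element `∫ c(t) σ_t(x) dt` applied to a vector. -/
noncomputable def smear (D : ModData M Ω) (c : ℝ → ℂ) (x : H →L[ℂ] H) (v : H) : H :=
  ∫ t, c t • D.U t (x (D.U (-t) v))

/-- The Fourier transform `∫ v(E) e^(-iEt) dE`. -/
noncomputable def fourierT (v : ℝ → ℝ) (t : ℝ) : ℂ :=
  ∫ E : ℝ, (v E : ℂ) * Complex.exp (-(Complex.I * (E : ℂ) * (t : ℂ)))

/-- `v(log Δ) ξ`, up to a constant. -/
noncomputable def fsmear (D : ModData M Ω) (v : ℝ → ℝ) (ξ : H) : H :=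
  ∫ t : ℝ, fourierT v t • D.U t ξ

/-- An isometry of weight `c`: `‖φ v - c v φ‖ ≤ δ`. -/
def HasWeight (M : VonNeumannAlgebra H) (Ω : H) (v : H →L[ℂ] H) (c δ : ℝ) : Prop :=
  v ∈ M ∧ star v * v = 1 ∧
    ∀ y ∈ M, ‖⟪Ω, v (y Ω)⟫_ℂ - (c : ℂ) * ⟪Ω, y (v Ω)⟫_ℂ‖ ≤ δ * ‖y‖

variable {d : ℕ}

/-- A unitary matrix over `M`. -/
def IsUnitaryMat (M : VonNeumannAlgebra H) (W : Fin d → Fin d → H →L[ℂ] H) : Prop :=
  (∀ j k, W j k ∈ M) ∧
    (∀ j l, ∑ k, star (W k j) * W k l = if j = l then 1 else 0) ∧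
    ∀ j l, ∑ k, W j k * star (W l k) = if j = l then 1 else 0

/-- The entries of `[W, ξ]` for `ξ = diag (√c_j Ω)`. -/
noncomputable def cvec (D : ModData M Ω) (c : Fin d → ℝ) (W : Fin d → Fin d → H →L[ℂ] H)
    (j k : Fin d) : H :=
  (√(c k) : ℂ) • W j k Ω - (√(c j) : ℂ) • D.J (star (W j k) Ω)

/-- `‖W ξ - ξ W‖²`. -/
noncomputable def cent2 (D : ModData M Ω) (c : Fin d → ℝ) (W : Fin d → Fin d → H →L[ℂ] H) : ℝ :=
  ∑ j, ∑ k, ‖cvec D c W j k‖ ^ 2

/-- `‖[diag A, W] ξ‖²`. -/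
noncomputable def comm2 (Ω : H) (c : Fin d → ℝ) (A : Fin d → H →L[ℂ] H)
    (W : Fin d → Fin d → H →L[ℂ] H) : ℝ :=
  ∑ j, ∑ k, c k * ‖(A j * W j k - W j k * A k) Ω‖ ^ 2

/-- The diagonal of `[L, [L, ξ]]`. -/
noncomputable def drift (D : ModData M Ω) (c : Fin d → ℝ) (L : Fin d → Fin d → H →L[ℂ] H) : ℝ :=
  √(∑ j, ‖∑ k, (L j k (cvec D c L k j) - D.J (star (L k j) (D.J (cvec D c L j k))))‖ ^ 2)

/-- `⟨Z ξ, [diag A, L] ξ⟩` for a scalar matrix `Z`. -/
noncomputable def pairing (Ω : H) (c : Fin d → ℝ) (A : Fin d → H →L[ℂ] H)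
    (L : Fin d → Fin d → H →L[ℂ] H) (Z : Fin d → Fin d → ℂ) : ℂ :=
  ∑ j, ∑ k, (c k : ℂ) * starRingEnd ℂ (Z j k) * ⟪Ω, (A j * L j k - L j k * A k) Ω⟫_ℂ

/-- The flow on the bicentralizer, parametrised by weights in `(0, 1]` (module Transfer). -/
structure FlowData (M : VonNeumannAlgebra H) (Ω : H) (D : ModData M Ω) where
  /-- `a` goes to the limit of `v* a v` over isometries `v` of weight `c` -/
  beta : ℝ → (H →L[ℂ] H) → H →L[ℂ] H
  mem : ∀ c a, 0 < c → c ≤ 1 → InBicentralizer M (vecState Ω) a →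
    InBicentralizer M (vecState Ω) (beta c a)
  norm_le : ∀ c a, 0 < c → c ≤ 1 → InBicentralizer M (vecState Ω) a → ‖beta c a‖ ≤ ‖a‖
  one : ∀ a, InBicentralizer M (vecState Ω) a → beta 1 a = a
  comp : ∀ c e a, 0 < c → c ≤ 1 → 0 < e → e ≤ 1 → InBicentralizer M (vecState Ω) a →
    beta c (beta e a) = beta (c * e) a
  add : ∀ c a b, 0 < c → c ≤ 1 → InBicentralizer M (vecState Ω) a →
    InBicentralizer M (vecState Ω) b → beta c (a + b) = beta c a + beta c b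
  smul : ∀ c (z : ℂ) a, 0 < c → c ≤ 1 → InBicentralizer M (vecState Ω) a →
    beta c (z • a) = z • beta c a
  mul : ∀ c a b, 0 < c → c ≤ 1 → InBicentralizer M (vecState Ω) a →
    InBicentralizer M (vecState Ω) b → beta c (a * b) = beta c a * beta c b
  star_eq : ∀ c a, 0 < c → c ≤ 1 → InBicentralizer M (vecState Ω) a →
    beta c (star a) = star (beta c a)
  inner_eq : ∀ c a b, 0 < c → c ≤ 1 → InBicentralizer M (vecState Ω) a →
    InBicentralizer M (vecState Ω) b → ⟪beta c a Ω, beta c b Ω⟫_ℂ = ⟪a Ω, b Ω⟫_ℂ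
  sigma : ∀ c t a, 0 < c → c ≤ 1 → InBicentralizer M (vecState Ω) a →
    beta c (D.U t * a * D.U (-t)) = D.U t * beta c a * D.U (-t)
  cont : ∀ a, InBicentralizer M (vecState Ω) a →
    ContinuousOn (fun c => beta c a Ω) (Set.Ioc (0 : ℝ) 1)
  /-- the transfer lemma: the bound only depends on `a` -/
  transfer : ∀ a, InBicentralizer M (vecState Ω) a → ∀ η : ℝ, 0 < η → ∃ δ : ℝ, 0 < δ ∧
    ∀ (d : ℕ) (c : Fin d → ℝ) (W : Fin d → Fin d → H →L[ℂ] H), (∀ j, 0 < c j) → ∑ j, c j = 1 →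
      IsUnitaryMat M W → cent2 D c W ≤ δ → comm2 Ω c (fun j => beta (c j) a) W ≤ η

namespace Iface

/-- Modular. -/
def StmtModular.{v} : Prop :=
  ∀ (H : Type v) [NormedAddCommGroup H] [InnerProductSpace ℂ H] [CompleteSpace H]
    (M : VonNeumannAlgebra H) (Ω : H), IsCS M Ω → Nonempty (ModData M Ω)

/-- Homog (Connes-Størmer). -/
def StmtHomog.{v} : Prop :=
  ∀ (H : Type v) [NormedAddCommGroup H] [InnerProductSpace ℂ H] [CompleteSpace H]
    [TopologicalSpace.SeparableSpace H] (M : VonNeumannAlgebra H) (Ω : H),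
    IsCS M Ω → IsTypeIII M → HasFullSpectrum M → IsHomogeneous M

/-- Transfer. -/
def StmtFlow.{v} : Prop :=
  ∀ (H : Type v) [NormedAddCommGroup H] [InnerProductSpace ℂ H] [CompleteSpace H]
    (M : VonNeumannAlgebra H) (Ω : H) (D : ModData M Ω), IsCS M Ω → IsTypeIII M → IsHomogeneous M →
      Nonempty (FlowData M Ω D)

/-- Bic (with Flow): the bicentralizer is a norm closed star algebra invariant under the modular
group. -/
def StmtBic.{v} : Prop :=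
  ∀ (H : Type v) [NormedAddCommGroup H] [InnerProductSpace ℂ H] [CompleteSpace H]
    (M : VonNeumannAlgebra H) (Ω : H) (D : ModData M Ω), IsCS M Ω →
      let B := {a : H →L[ℂ] H | InBicentralizer M (vecState Ω) a}
      IsClosed B ∧ 1 ∈ B ∧ (∀ a ∈ B, star a ∈ B) ∧ (∀ a ∈ B, ∀ b ∈ B, a + b ∈ B ∧ a * b ∈ B) ∧
        (∀ (z : ℂ), ∀ a ∈ B, z • a ∈ B) ∧ ∀ t, ∀ a ∈ B, D.U t * a * D.U (-t) ∈ B

/-- Weight (with Flow): isometries of every weight. -/
def StmtWeight.{v} : Prop :=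
  ∀ (H : Type v) [NormedAddCommGroup H] [InnerProductSpace ℂ H] [CompleteSpace H]
    (M : VonNeumannAlgebra H) (Ω : H), IsCS M Ω → IsTypeIII M → IsHomogeneous M →
      ∀ c δ : ℝ, 0 < c → c ≤ 1 → 0 < δ → ∃ v, HasWeight M Ω v c δ

/-- Random: averaged random unitaries bound the pairing by the drift. -/
def StmtDissip.{v} : Prop :=
  ∀ (H : Type v) [NormedAddCommGroup H] [InnerProductSpace ℂ H] [CompleteSpace H]
    (M : VonNeumannAlgebra H) (Ω : H) (D : ModData M Ω), IsCS M Ω →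
    ∀ (d : ℕ) (c : Fin d → ℝ) (A : Fin d → H →L[ℂ] H) (L : Fin d → Fin d → H →L[ℂ] H)
      (Z : Fin d → Fin d → ℂ) (δ η C : ℝ),
      (∀ j, 0 < c j) → ∑ j, c j = 1 → 0 < δ → 0 ≤ η → 0 ≤ C →
      (∀ j, A j ∈ M ∧ IsSelfAdjoint (A j) ∧ ‖A j‖ ≤ 1) →
      (∀ j k, L j k ∈ M) → (∀ j k, star (L j k) = L k j) → (∀ j, L j j = 0) →
      (∀ W : Fin d → Fin d → H →L[ℂ] H, IsUnitaryMat M W → cent2 D c W ≤ δ → comm2 Ω c A W ≤ η) →
      (∀ B : Fin d → H →L[ℂ] H, (∀ j, B j ∈ M ∧ IsSelfAdjoint (B j)) →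
        ‖pairing Ω c B L Z‖ ≤ C * √(∑ j, c j * ‖B j Ω‖ ^ 2)) →
      let e := √η + 2 * √(2 * drift D c L / δ)
      ‖pairing Ω c A L Z‖ ≤
        √(∑ j, ∑ k, c k * ‖Z j k‖ ^ 2) * √(2 * e + 4 * drift D c L) + C * e

/-- Smooth + End: with the dissipation bound, the bicentralizer is fixed by the modular group. -/
def StmtFixed.{v} : Prop :=
  ∀ (H : Type v) [NormedAddCommGroup H] [InnerProductSpace ℂ H] [CompleteSpace H]
    (M : VonNeumannAlgebra H) (Ω : H) (D : ModData M Ω), IsCS M Ω → FlowData M Ω D →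
      ∀ a, InBicentralizer M (vecState Ω) a → ∀ t, D.U t (a Ω) = a Ω

/-- Scalar: fixed bicentralizer elements are scalars. -/
def StmtScalar.{v} : Prop :=
  ∀ (H : Type v) [NormedAddCommGroup H] [InnerProductSpace ℂ H] [CompleteSpace H]
    (M : VonNeumannAlgebra H) (Ω : H) (D : ModData M Ω), IsCS M Ω → IsTypeIII M → IsHomogeneous M →
      (∀ a, InBicentralizer M (vecState Ω) a → ∀ t, D.U t (a Ω) = a Ω) →
        ∀ a, InBicentralizer M (vecState Ω) a → ∃ c : ℂ, a = c • (1 : H →L[ℂ] H)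

/-- GNS: reduction of a faithful normal state to a cyclic separating vector. -/
def StmtGNS.{v} : Prop :=
  ∀ (H : Type v) [NormedAddCommGroup H] [InnerProductSpace ℂ H] [CompleteSpace H]
    [TopologicalSpace.SeparableSpace H] (M : VonNeumannAlgebra H) (φ : (H →L[ℂ] H) →ₗ[ℂ] ℂ),
    IsState M φ → IsTypeIII M → HasFullSpectrum M →
    (∀ (K : Type v) [NormedAddCommGroup K] [InnerProductSpace ℂ K] [CompleteSpace K]
      [TopologicalSpace.SeparableSpace K] (N : VonNeumannAlgebra K) (Ω : K), IsCS N Ω →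
      IsTypeIII N → HasFullSpectrum N →
      ∀ b, InBicentralizer N (vecState Ω) b → ∃ c : ℂ, b = c • (1 : K →L[ℂ] K)) →
    ∀ a, InBicentralizer M φ a → ∃ c : ℂ, a = c • (1 : H →L[ℂ] H)

/-- The hand-in. -/
def StmtMain.{v} : Prop :=
  ∀ (H : Type v) [NormedAddCommGroup H] [InnerProductSpace ℂ H] [CompleteSpace H]
    [TopologicalSpace.SeparableSpace H] (M : VonNeumannAlgebra H) (φ : (H →L[ℂ] H) →ₗ[ℂ] ℂ),
    IsState M φ → IsTypeIII M → HasFullSpectrum M →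
      ∀ a, InBicentralizer M φ a → ∃ c : ℂ, a = c • (1 : H →L[ℂ] H)

/-- The assembly. -/
theorem main_of.{v} (hMod : StmtModular.{v}) (hHom : StmtHomog.{v}) (hFlow : StmtFlow.{v})
    (hFix : StmtFixed.{v}) (hSc : StmtScalar.{v}) (hG : StmtGNS.{v}) : StmtMain.{v} := by
  intro H _ _ _ _ M φ hφ h3 hS
  refine hG H M φ hφ h3 hS fun K _ _ _ _ N Ω hΩ h3' hS' => ?_
  obtain ⟨D⟩ := hMod K N Ω hΩ
  have hh := hHom K N Ω hΩ h3' hS'
  obtain ⟨F⟩ := hFlow K N Ω D hΩ h3' hh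
  exact hSc K N Ω D hΩ h3' hh (hFix K N Ω D hΩ F)

end Iface

end Vale.Agent.P132
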