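import Mathlib

/-!
# P132: the notions used by the statement of the result
-/

namespace Vale.Agent.P132

open scoped InnerProductSpace Topology ComplexOrder
open Filter

universe u

variable {H : Type u} [NormedAddCommGroup H] [InnerProductSpace ℂ H] [CompleteSpace H]

/-- `φ` is a faithful normal state of `M`: positive, unital, faithful and continuous for the strong
operator topology on bounded parts of `M`. -/
structure IsState (M : VonNeumannAlgebra H) (φ : (H →L[ℂ] H) →ₗ[ℂ] ℂ) : Prop where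
  cont : ∀ δ : ℝ, 0 < δ → ∃ (F : Finset H) (η : ℝ), 0 < η ∧
    ∀ y ∈ M, ‖y‖ ≤ 1 → (∀ v ∈ F, ‖y v‖ ≤ η) → ‖φ y‖ ≤ δ
  pos : ∀ y ∈ M, 0 ≤ φ (star y * y)
  unital : φ 1 = 1
  faithful : ∀ y ∈ M, φ (star y * y) = 0 → y = 0

/-- `‖w φ - φ w‖ ≤ δ` in the predual of `M`. -/
def Centralises (M : VonNeumannAlgebra H) (φ : (H →L[ℂ] H) →ₗ[ℂ] ℂ) (w : H →L[ℂ] H) (δ : ℝ) :
    Prop :=
  ∀ y ∈ M, ‖φ (y * w) - φ (w * y)‖ ≤ δ * ‖y‖

/-- `a` is in the bicentralizer: it asymptotically commutes strongly with every bounded sequence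
that asymptotically centralises `φ`. -/
def InBicentralizer (M : VonNeumannAlgebra H) (φ : (H →L[ℂ] H) →ₗ[ℂ] ℂ) (a : H →L[ℂ] H) : Prop :=
  a ∈ M ∧ ∀ w : ℕ → H →L[ℂ] H, (∀ n, w n ∈ M) → (∃ C, ∀ n, ‖w n‖ ≤ C) →
    (∀ δ : ℝ, 0 < δ → ∀ᶠ n in atTop, Centralises M φ (w n) δ) →
      ∀ v : H, Tendsto (fun n => (a * w n - w n * a) v) atTop (𝓝 0)

/-- `M` is a factor. -/
def IsFactor (M : VonNeumannAlgebra H) : Prop :=
  ∀ z ∈ M, (∀ x ∈ M, z * x = x * z) → ∃ c : ℂ, z = c • (1 : H →L[ℂ] H)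

/-- A factor of type III with countably decomposable identity: it is not one dimensional and every
nonzero projection is equivalent to the identity. -/
structure IsTypeIII (M : VonNeumannAlgebra H) : Prop where
  factor : IsFactor M
  proper : ∃ p ∈ M, IsStarProjection p ∧ p ≠ 0 ∧ p ≠ 1
  equiv_one : ∀ p ∈ M, IsStarProjection p → p ≠ 0 →
    ∃ S ∈ M, star S * S = 1 ∧ S * star S = p

/-- The modular operator of `φ` has `l` in its spectrum. In the GNS space `⟨y, Δ x⟩ = φ (x y*)`, so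
the inequality bounds the form `(Δ - l) x` in the dual of the graph norm of `Δ^(1/2)`. -/
def InModSpectrum (M : VonNeumannAlgebra H) (φ : (H →L[ℂ] H) →ₗ[ℂ] ℂ) (l : ℝ) : Prop :=
  ∀ ε : ℝ, 0 < ε → ∃ x ∈ M, φ (star x * x) = 1 ∧ ∀ y ∈ M,
    ‖φ (x * star y) - (l : ℂ) * φ (star y * x)‖ ≤
      ε * √((φ (star y * y)).re + (φ (y * star y)).re)

/-- Every faithful normal state has full modular spectrum. -/
def HasFullSpectrum (M : VonNeumannAlgebra H) : Prop :=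
  ∀ φ : (H →L[ℂ] H) →ₗ[ℂ] ℂ, IsState M φ → ∀ l : ℝ, 0 ≤ l → InModSpectrum M φ l

/-- Any two faithful normal states are approximately unitarily equivalent. -/
def IsHomogeneous (M : VonNeumannAlgebra H) : Prop :=
  ∀ f g : (H →L[ℂ] H) →ₗ[ℂ] ℂ, IsState M f → IsState M g → ∀ ε : ℝ, 0 < ε →
    ∃ u ∈ M, star u * u = 1 ∧ u * star u = 1 ∧
      ∀ y ∈ M, ‖f (star u * y * u) - g y‖ ≤ ε * ‖y‖

end Vale.Agent.P132
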